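import Crest.Agent.Lib.PT.Parse

/-!
More polynomial-time tools: indexing, bounded quantifiers, tables, bitwise operations, pair codes.
Indices may be given in binary (`PTime`); loop bounds are unary (`PU`).
-/

set_option autoImplicit false
set_option linter.unusedVariables false

namespace Crest.Agent.PT

open Function Crest.Agent.PT.Rp

section
variable {α β : Type} [Rp α] [Rp β]

/-! ### Logic and order -/

@[fun_prop] theorem PTime.imp {c d : α → Prop} (hc : PTime c) (hd : PTime d) :
    PTime fun a => c a → d a :=
  (hc.not.or hd).congr fun a => by rw [imp_iff_not_or]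

@[fun_prop] theorem PTime.iff {c d : α → Prop} (hc : PTime c) (hd : PTime d) :
    PTime fun a => (c a ↔ d a) :=
  ((hc.imp hd).and (hd.imp hc)).congr fun a => by rw [iff_iff_implies_and_implies]

@[fun_prop] theorem PTime.ne {f g : α → ℕ} (hf : PTime f) (hg : PTime g) :
    PTime fun a => f a ≠ g a := (hf.eq hg).not

@[fun_prop] theorem PTime.bne {b c : α → Bool} (hb : PTime b) (hc : PTime c) :
    PTime fun a => b a ≠ c a := (hb.beq hc).not

@[fun_prop] theorem PTime.bxor {b c : α → Bool} (hb : PTime b) (hc : PTime c) :
    PTime fun a => xor (b a) (c a) :=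
  (hb.cond hc.bnot hc).congr fun a => by cases b a <;> cases c a <;> rfl

@[fun_prop] theorem PTime.bbeq {b c : α → Bool} (hb : PTime b) (hc : PTime c) :
    PTime fun a => b a == c a :=
  (hb.cond hc hc.bnot).congr fun a => by cases b a <;> cases c a <;> rfl

@[fun_prop] theorem PTime.boolToNat {b : α → Bool} (hb : PTime b) :
    PTime fun a => (b a).toNat :=
  (hb.cond (PTime.const 1) (PTime.const 0)).congr fun a => by cases b a <;> rfl

@[fun_prop] theorem PTime.min {f g : α → ℕ} (hf : PTime f) (hg : PTime g) :
    PTime fun a => min (f a) (g a) :=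
  PTime.congr (f := fun a => if f a ≤ g a then f a else g a) (by fun_prop) fun a => min_def _ _

@[fun_prop] theorem PTime.max {f g : α → ℕ} (hf : PTime f) (hg : PTime g) :
    PTime fun a => max (f a) (g a) :=
  PTime.congr (f := fun a => if f a ≤ g a then g a else f a) (by fun_prop) fun a => max_def _ _

theorem PU.min_left {k n : α → ℕ} (hk : PU k) (hn : PTime n) : PU fun a => min (k a) (n a) :=
  PU.of_le (hk.ptime.min hn) hk fun a => min_le_left _ _

@[fun_prop] theorem PU.max {k n : α → ℕ} (hk : PU k) (hn : PU n) : PU fun a => max (k a) (n a) :=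
  PU.of_le (hk.ptime.max hn.ptime) (hk.add hn) fun a => by omega

/-- A remainder modulo a positive unary number is unary. -/
theorem PU.mod_right {m n : α → ℕ} (hm : PTime m) (hn : PU n) (h : ∀ a, 0 < n a) :
    PU fun a => m a % n a :=
  PU.of_le (hm.mod hn.ptime) hn fun a => (Nat.mod_lt _ (h a)).le

/-! ### Indexing words -/

/-- `drop` with a binary index. -/
theorem PTime.drop' {f : α → Word} {n : α → ℕ} (hn : PTime n) (hf : PTime f) :
    PTime fun a => (f a).drop (n a) :=
  (PTime.drop (PU.min_right hn (PU.length hf)) hf).congr fun a => by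
    rcases le_total (n a) (f a).length with h | h
    · rw [min_eq_left h]
    · rw [min_eq_right h, List.drop_of_length_le h, List.drop_length]

@[fun_prop] theorem PTime.take {f : α → Word} {n : α → ℕ} (hn : PTime n) (hf : PTime f) :
    PTime fun a => (f a).take (n a) :=
  (PTime.drop ((PU.length hf).sub' hn) hf.reverse).reverse.congr fun a => by
    rw [List.drop_reverse, List.reverse_reverse]
    rcases le_total (n a) (f a).length with h | h
    · congr 1; omega
    · rw [List.take_of_length_le h, List.take_of_length_le (by omega)]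

@[fun_prop] theorem PTime.headD {f : α → Word} {b : α → Bool} (hf : PTime f) (hb : PTime b) :
    PTime fun a => (f a).headD (b a) := by
  refine (PTime.cases hf hb (PTime.const true) (PTime.const false)).congr fun a => ?_
  rcases f a with _ | ⟨_ | _, _⟩ <;> rfl

@[fun_prop] theorem PTime.getD {f : α → Word} {n : α → ℕ} {b : α → Bool} (hf : PTime f)
    (hn : PTime n) (hb : PTime b) : PTime fun a => (f a).getD (n a) (b a) :=
  ((PTime.drop' hn hf).headD hb).congr fun a => by
    simp [List.getD_eq_getElem?_getD, List.headD_eq_head?_getD, List.head?_drop]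

@[fun_prop] theorem PTime.set {f : α → Word} {n : α → ℕ} {b : α → Bool} (hf : PTime f)
    (hn : PTime n) (hb : PTime b) : PTime fun a => (f a).set (n a) (b a) := by
  have h1 : PTime fun a => (f a).drop (n a + 1) := PTime.drop' (by fun_prop) hf
  refine PTime.congr (f := fun a => if n a < (f a).length then
    (f a).take (n a) ++ b a :: (f a).drop (n a + 1) else f a) (by fun_prop) fun a => ?_
  rw [List.set_eq_take_append_cons_drop]

/-! ### Tables and bounded quantifiers -/

/-- A table of bits. -/
theorem PTime.rangeMap {n : α → ℕ} {g : α → ℕ → Bool} (hn : PU n)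
    (hg : PTime fun p : α × Un => g p.1 p.2.val) :
    PTime fun a => (List.range (n a)).map (g a) :=
  (PTime.flatRange (g := fun a i => [g a i]) hn (hg.cons (PTime.const []))).congr fun a => by
    rw [← List.flatMap_def, ← List.map_eq_flatMap]

theorem getD_rangeMap (n : ℕ) (g : ℕ → Bool) (i : ℕ) :
    ((List.range n).map g).getD i false = (decide (i < n) && g i) := by
  by_cases h : i < n
  · simp [List.getD_eq_getElem?_getD, h]
  · simp [List.getD_eq_getElem?_getD, h]

theorem getD_rangeMap_of_lt {n : ℕ} (g : ℕ → Bool) {i : ℕ} (h : i < n) (b : Bool) :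
    ((List.range n).map g).getD i b = g i := by
  simp [List.getD_eq_getElem?_getD, h]

theorem PTime.exists_lt {n : α → ℕ} {c : α → ℕ → Prop} (hn : PU n)
    (hc : PTime fun p : α × Un => c p.1 p.2.val) : PTime fun a => ∃ i < n a, c a i := by
  refine PTime.loop (fun a k => ∃ i < k, c a i) (fun a s k => s ∨ c a k) hn
    ((PTime.const False).congr fun a => by simp)
    (PTime.or (by fun_prop) (hc.comp (f := fun p : α × Prop × Un => (p.1, p.2.2)) (by fun_prop)))
    (fun a k _ => propext Nat.exists_lt_succ_right) (PB.const 1) (fun a k _ => le_of_eq ?_)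
  show ∑ _ : Unit, 1 = 1
  simp

theorem PTime.forall_lt {n : α → ℕ} {c : α → ℕ → Prop} (hn : PU n)
    (hc : PTime fun p : α × Un => c p.1 p.2.val) : PTime fun a => ∀ i < n a, c a i :=
  (PTime.exists_lt (c := fun a i => ¬ c a i) hn hc.not).not.congr fun a => by simp

theorem PTime.exists_fin {n : α → ℕ} {c : α → ℕ → Prop} (hn : PU n)
    (hc : PTime fun p : α × Un => c p.1 p.2.val) : PTime fun a => ∃ i : Fin (n a), c a i.val :=
  (PTime.exists_lt hn hc).congr fun a => propext
    ⟨fun ⟨i, hi⟩ => ⟨i, i.2, hi⟩, fun ⟨i, h, hi⟩ => ⟨⟨i, h⟩, hi⟩⟩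

theorem PTime.forall_fin {n : α → ℕ} {c : α → ℕ → Prop} (hn : PU n)
    (hc : PTime fun p : α × Un => c p.1 p.2.val) : PTime fun a => ∀ i : Fin (n a), c a i.val :=
  (PTime.forall_lt hn hc).congr fun a => propext
    ⟨fun h i hi => h ⟨i, hi⟩, fun h i => h i i.2⟩

/-- Counting. -/
theorem PU.card_filter {n : α → ℕ} {c : α → ℕ → Prop} [∀ a i, Decidable (c a i)] (hn : PU n)
    (hc : PTime fun p : α × Un => c p.1 p.2.val) :
    PU fun a => ((Finset.range (n a)).filter (c a)).card := by
  refine PU.of_le ?_ hn fun a => (Finset.card_filter_le _ _).trans (Finset.card_range _).le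
  refine (PTime.sum_range (g := fun a i => if c a i then 1 else 0) hn
    (PTime.ite hc (PTime.const 1) (PTime.const 0))).congr fun a => ?_
  rw [Finset.card_filter]

theorem PTime.card_filter {n : α → ℕ} {c : α → ℕ → Prop} [∀ a i, Decidable (c a i)] (hn : PU n)
    (hc : PTime fun p : α × Un => c p.1 p.2.val) :
    PTime fun a => ((Finset.range (n a)).filter (c a)).card := (PU.card_filter hn hc).ptime

/-- Sums of unary numbers. -/
theorem PU.sum_range {n : α → ℕ} {g : α → ℕ → ℕ} (hn : PU n)
    (hg : PU fun p : α × Un => g p.1 p.2.val) : PU fun a => ∑ i ∈ Finset.range (n a), g a i := by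
  have := PU.length (PTime.flatRange (g := fun a i => List.replicate (g a i) true) hn
    (PU.word_iff.1 hg))
  refine PTime.congr this fun a => ?_
  simp only [List.length_flatten, List.map_map, Function.comp_def, List.length_replicate]
  rfl

/-- The least index below `n` with property `c` (or `n`). -/
theorem PU.find_lt {n : α → ℕ} {c : α → ℕ → Prop} (hn : PU n)
    (hc : PTime fun p : α × Un => c p.1 p.2.val) :
    ∃ f : α → ℕ, PU f ∧ ∀ a, f a ≤ n a ∧ (∀ i < f a, ¬ c a i) ∧ (f a < n a → c a (f a)) := by
  classical
  refine ⟨fun a => PT.lead ((List.range (n a)).map fun i => !decide (c a i)),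
    PU.lead (PTime.rangeMap (g := fun a i => !decide (c a i)) hn hc.decide.bnot), fun a => ?_⟩
  have key : ∀ (m : ℕ) (d : ℕ → Prop), PT.lead ((List.range m).map fun i => !decide (d i)) ≤ m ∧
      (∀ i < PT.lead ((List.range m).map fun i => !decide (d i)), ¬ d i) ∧
      (PT.lead ((List.range m).map fun i => !decide (d i)) < m →
        d (PT.lead ((List.range m).map fun i => !decide (d i)))) := by
    intro m
    induction m with
    | zero => intro d; simp [PT.lead]
    | succ m ih =>
      intro d
      obtain ⟨h1, h2, h3⟩ := ih fun i => d (i + 1)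
      by_cases h0 : d 0
      · simp [PT.lead, List.range_succ_eq_map, h0]
      · have e : PT.lead ((List.range (m + 1)).map fun i => !decide (d i)) =
            PT.lead ((List.range m).map fun i => !decide (d (i + 1))) + 1 := by
          simp [PT.lead, List.range_succ_eq_map, h0, Function.comp_def]
        rw [e]
        refine ⟨by omega, fun i hi => ?_, fun h => h3 (by omega)⟩
        cases i with
        | zero => exact h0
        | succ i => exact h2 i (by omega)
  exact key _ _

/-- Equality of words. -/
@[fun_prop] theorem PTime.weq {f g : α → Word} (hf : PTime f) (hg : PTime g) :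
    PTime fun a => f a = g a := by
  have h1 : PTime fun a => ∀ i < (f a).length, (f a).getD i false = (g a).getD i false :=
    PTime.forall_lt (c := fun a i => (f a).getD i false = (g a).getD i false) (PU.length hf)
      (by fun_prop)
  refine ((hf.length.eq hg.length).and h1).congr fun a => propext ⟨fun h => by simp [h], ?_⟩
  rintro ⟨h2, h3⟩
  refine List.ext_getElem h2 fun i hi hi' => ?_
  have := h3 i hi
  rwa [List.getD_eq_getElem _ _ hi, List.getD_eq_getElem _ _ hi'] at this

/-- Iterating a step whose states stay polynomially bounded. -/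
theorem PTime.iter {σ : Type} [Rp σ] {step : α → σ → σ} {init : α → σ} {n : α → ℕ}
    (hs : PTime fun p : α × σ => step p.1 p.2) (hi : PTime init) (hn : PU n)
    {B : α → ℕ} (hB : PB B) (hb : ∀ a k, k ≤ n a → PT.sz ((step a)^[k] (init a)) ≤ B a) :
    PTime fun a => (step a)^[n a] (init a) :=
  PTime.loop (fun a k => (step a)^[k] (init a)) (fun a s _ => step a s) hn hi
    (hs.comp (f := fun p : α × σ × Un => (p.1, p.2.1)) (by fun_prop))
    (fun a k _ => iterate_succ_apply' _ _ _) hB hb

/-- Iterating an update of a table of `N` bits. -/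
theorem PTime.iter_table {N n : α → ℕ} {g : α → Word → ℕ → Bool} {init : α → Word} (hN : PU N)
    (hn : PU n) (hi : PTime init) (hg : PTime fun p : (α × Word) × Un => g p.1.1 p.1.2 p.2.val) :
    PTime fun a => (fun T => (List.range (N a)).map (g a T))^[n a] (init a) := by
  refine PTime.iter (step := fun a T => (List.range (N a)).map (g a T))
    (PTime.rangeMap (g := fun p : α × Word => g p.1 p.2) (hN.comp PTime.fst') hg) hi hn
    (hN.pb.add hi.sz) fun a k _ => ?_
  cases k with
  | zero => simp
  | succ k => rw [iterate_succ_apply']; simp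

/-! ### Bits of numbers -/

@[fun_prop] theorem PTime.testBit {f k : α → ℕ} (hf : PTime f) (hk : PTime k) :
    PTime fun a => (f a).testBit (k a) :=
  (hf.bits.getD hk (PTime.const false)).congr fun a => by
    rw [Nat.testBit_eq_inth, List.getI]; rfl

theorem ofB_lt (l : Word) : ofB l < 2 ^ l.length := by
  induction l with
  | nil => simp [ofB]
  | cons b l ih =>
    rw [ofB, Nat.bit_val, List.length_cons, pow_succ]
    cases b <;> simp <;> omega

theorem testBit_ofB (l : Word) (i : ℕ) : (ofB l).testBit i = l.getD i false := by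
  induction l generalizing i with
  | nil => simp [ofB]
  | cons b l ih =>
    cases i with
    | zero => rw [ofB, Nat.testBit_bit_zero]; rfl
    | succ i => rw [ofB, Nat.testBit_bit_succ, ih]; rfl

@[fun_prop] theorem PTime.ofB {f : α → Word} (hf : PTime f) : PTime fun a => ofB (f a) := by
  have key : ∀ l : Word, l.foldl (fun (s : ℕ) (b : Bool) => Nat.bit b s) 0 = PT.ofB l.reverse := by
    intro l
    induction l using List.reverseRecOn with
    | nil => rfl
    | append_singleton l b ih => simp [ih, PT.ofB]
  have := PTime.foldl (σ := ℕ) (init := fun _ => 0) (step := fun _ s b => Nat.bit b s)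
    hf.reverse (PTime.const _) (by fun_prop) hf.sz (fun a k => by
      rw [key, sz_nat_le]
      exact (ofB_lt _).trans_le (Nat.pow_le_pow_right (by omega) (by simp)))
  exact this.congr fun a => by rw [key, List.reverse_reverse]

/-- A number below `2 ^ n` whose bits are computable. -/
theorem PTime.of_testBit {h n : α → ℕ} (hn : PU n) (hlt : ∀ a, h a < 2 ^ n a)
    (hb : PTime fun p : α × Un => (h p.1).testBit p.2.val) : PTime h :=
  (PTime.rangeMap (g := fun a i => (h a).testBit i) hn hb).ofB.congr fun a => by
    refine Nat.eq_of_testBit_eq fun i => ?_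
    rw [testBit_ofB, getD_rangeMap]
    by_cases hi : i < n a
    · simp [hi]
    · simp only [hi, decide_false, Bool.false_and]
      exact Nat.testBit_lt_two_pow
        ((hlt a).trans_le (Nat.pow_le_pow_right (by omega) (not_lt.1 hi)))

theorem lt_two_pow_size_add (m n : ℕ) :
    m < 2 ^ (m.size + n.size) ∧ n < 2 ^ (m.size + n.size) :=
  ⟨Nat.size_le.1 (by omega), Nat.size_le.1 (by omega)⟩

@[fun_prop] theorem PTime.land {f g : α → ℕ} (hf : PTime f) (hg : PTime g) :
    PTime fun a => f a &&& g a :=
  PTime.of_testBit ((PU.size hf).add (PU.size hg))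
    (fun a => Nat.and_lt_two_pow _ (lt_two_pow_size_add _ _).2)
    (by simp only [Nat.testBit_and]; fun_prop)

@[fun_prop] theorem PTime.lor {f g : α → ℕ} (hf : PTime f) (hg : PTime g) :
    PTime fun a => f a ||| g a :=
  PTime.of_testBit ((PU.size hf).add (PU.size hg))
    (fun a => Nat.or_lt_two_pow (lt_two_pow_size_add _ _).1 (lt_two_pow_size_add _ _).2)
    (by simp only [Nat.testBit_or]; fun_prop)

@[fun_prop] theorem PTime.lxor {f g : α → ℕ} (hf : PTime f) (hg : PTime g) :
    PTime fun a => f a ^^^ g a :=
  PTime.of_testBit ((PU.size hf).add (PU.size hg))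
    (fun a => Nat.xor_lt_two_pow (lt_two_pow_size_add _ _).1 (lt_two_pow_size_add _ _).2)
    (by simp only [Nat.testBit_xor]; fun_prop)

/-- Right shift by a binary amount. -/
@[fun_prop] theorem PTime.shiftRight {f k : α → ℕ} (hf : PTime f) (hk : PTime k) :
    PTime fun a => f a >>> k a :=
  PTime.of_testBit (PU.size hf)
    (fun a => (Nat.shiftRight_le _ _).trans_lt (Nat.lt_size_self _))
    (by simp only [Nat.testBit_shiftRight]; fun_prop)

@[fun_prop] theorem PTime.shiftLeft {f k : α → ℕ} (hf : PTime f) (hk : PU k) :
    PTime fun a => f a <<< k a :=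
  (hf.mul ((PTime.const 2).pow hk)).congr fun a => Nat.shiftLeft_eq _ _

/-- Left shift by a binary amount, truncated to a unary number of bits. -/
theorem PTime.shiftLeft_mod {f k w : α → ℕ} (hf : PTime f) (hk : PTime k) (hw : PU w) :
    PTime fun a => f a <<< k a % 2 ^ w a :=
  PTime.of_testBit hw (fun a => Nat.mod_lt _ (by positivity))
    (by
      have := hw.ptime
      simp only [Nat.testBit_mod_two_pow, Nat.testBit_shiftLeft, ge_iff_le]
      fun_prop)

/-! ### Pair code -/

end

/-- Self-delimiting code of a pair of words. -/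
def enc2 (u v : Word) : Word := List.replicate u.length true ++ false :: (u ++ v)

def dec2a (x : Word) : Word := (x.drop (lead x + 1)).take (lead x)

def dec2b (x : Word) : Word := x.drop (lead x + 1 + lead x)

@[simp] theorem dec2a_enc2 (u v : Word) : dec2a (enc2 u v) = u := by
  rw [dec2a, enc2, lead_replicate]
  simp [List.drop_append]

@[simp] theorem dec2b_enc2 (u v : Word) : dec2b (enc2 u v) = v := by
  rw [dec2b, enc2, lead_replicate, ← List.drop_drop]
  simp [List.drop_append]

@[simp] theorem length_enc2 (u v : Word) : (enc2 u v).length = 2 * u.length + 1 + v.length := by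
  simp [enc2]; omega

theorem enc2_append (u v r : Word) : enc2 u v ++ r = enc2 u (v ++ r) := by simp [enc2]

theorem length_dec2a_le (x : Word) : (dec2a x).length ≤ x.length := by
  simp only [dec2a, List.length_take, List.length_drop]; omega

theorem length_dec2b_le (x : Word) : (dec2b x).length ≤ x.length := by
  simp only [dec2b, List.length_drop]; omega

section
variable {α : Type} [Rp α]

@[fun_prop] theorem PTime.enc2 {f g : α → Word} (hf : PTime f) (hg : PTime g) :
    PTime fun a => enc2 (f a) (g a) := by
  unfold PT.enc2; fun_prop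

@[fun_prop] theorem PTime.dec2a {f : α → Word} (hf : PTime f) : PTime fun a => dec2a (f a) := by
  unfold PT.dec2a; fun_prop

@[fun_prop] theorem PTime.dec2b {f : α → Word} (hf : PTime f) : PTime fun a => dec2b (f a) := by
  unfold PT.dec2b; fun_prop

end

end Crest.Agent.PT
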