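import Mathlib
import Crest.Prelude.Def_BitEnc
import Crest.Prelude.Def_WL
import Crest.Prelude.Def_ParityLift
import Crest.Prelude.Def_WordRAM
import Crest.Prelude.Def_Complexity
import Crest.Prelude.Def_TimeBound
import Crest.Prelude.Def_ExpTime
import Crest.Agent.Lib.PT.Parse

/-!
Row 290 (S0435-S0439), part 1: pebble games and the machine interfaces.

Overall plan. A computation of length `B` is turned into a Horn system on addresses in `ℤ × ℤ`
(`horn h y`); the Horn system into an affine system over `ZMod 2` with polynomially many variables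
(`sys3`, file `DefsL`), whose width-`O(k)` derivations refute it iff the goal fact is true; the affine
system into a pair of subcubic graphs (`gr`, file `DefsG`), which are distinguished by `O(k)` pebbles
iff the system is refuted.
-/

set_option autoImplicit false

namespace Crest.Agent.R290

open Crest.WLRefine Crest.Agent.PT Turing

/-! ### Pebble games -/

/-- A list of pairs is a partial isomorphism. -/
def PIso {V W : Type} (G : V → V → Bool) (H : W → W → Bool) (p : List (V × W)) : Prop :=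
  ∀ x ∈ p, ∀ y ∈ p, (x.1 = y.1 ↔ x.2 = y.2) ∧ G x.1 y.1 = H x.2 y.2

/-- A nonempty family of partial isomorphisms closed under taking subsets. -/
structure Fam {V W : Type} (G : V → V → Bool) (H : W → W → Bool)
    (P : List (V × W) → Prop) : Prop where
  nil : P []
  mono : ∀ p q, P q → (∀ x ∈ p, x ∈ q) → P p
  iso : ∀ p, P p → PIso G H p

/-- Back-and-forth system for `κ` pebbles. -/
structure BFS (κ : ℕ) {V W : Type} (G : V → V → Bool) (H : W → W → Bool)
    (P : List (V × W) → Prop) : Prop extends Fam G H P where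
  forth : ∀ p, P p → p.length < κ → ∀ a, ∃ b, P ((a, b) :: p)
  back : ∀ p, P p → p.length < κ → ∀ b, ∃ a, P ((a, b) :: p)

/-- Winning strategy of Duplicator in the bijective game with `κ` pebbles. -/
structure BGS (κ : ℕ) {V W : Type} (G : V → V → Bool) (H : W → W → Bool)
    (P : List (V × W) → Prop) : Prop extends Fam G H P where
  bij : ∀ p, P p → p.length < κ → ∃ β : V ≃ W, ∀ a, P ((a, β a) :: p)

def BF (κ : ℕ) {V W : Type} (G : V → V → Bool) (H : W → W → Bool) : Prop := ∃ P, BFS κ G H P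

def BG (κ : ℕ) {V W : Type} (G : V → V → Bool) (H : W → W → Bool) : Prop := ∃ P, BGS κ G H P

/-- Every back-and-forth system from `G` to itself fixes every vertex. -/
def Rigid (κ : ℕ) {V : Type} (G : V → V → Bool) : Prop :=
  ∀ P, BFS κ G G P → ∀ a b, P [(a, b)] → a = b

/-- Adding a vertex (the last one) adjacent to all others. -/
def apex {n : ℕ} (G : Fin n → Fin n → Bool) : Fin (n + 1) → Fin (n + 1) → Bool :=
  fun v w => if hv : v.val < n then (if hw : w.val < n then G ⟨v.val, hv⟩ ⟨w.val, hw⟩ else true)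
    else decide (w.val < n)

/-- Colours agree along a bijective strategy (joint: one spare pebble; separate: none). -/
def ColStmt : Prop :=
  ∀ (k n m : ℕ) (G : Fin n → Fin n → Bool) (H : Fin m → Fin m → Bool)
    (P : List (Fin n × Fin m) → Prop) (u : Fin k → Fin n) (v : Fin k → Fin m),
    P (List.ofFn fun i => (u i, v i)) →
      (BGS (k + 1) G H P → ∀ s, jcolor G k s u = jcolor H k s v) ∧
      (BGS k G H P → ∀ s, scolor G k s u = scolor H k s v)

/-- A bijection of tuples along a bijective strategy. -/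
def TupStmt : Prop :=
  ∀ (κ k : ℕ) (V W : Type) (G : V → V → Bool) (H : W → W → Bool) (P : List (V × W) → Prop),
    BGS κ G H P → k ≤ κ →
      ∃ Φ : (Fin k → V) ≃ (Fin k → W), ∀ u, P (List.ofFn fun i => (u i, Φ u i))

/-- Bijective strategies give all the equivalences. -/
def BGEquivStmt : Prop :=
  ∀ (k n m : ℕ) (G : Fin n → Fin n → Bool) (H : Fin m → Fin m → Bool),
    (BG (k + 1) G H → JEquiv k G H) ∧ (BG k G H → SEquiv k G H) ∧ (BG 2 G H → CREquiv G H)

/-- Equivalence gives a back-and-forth system and equal orders. -/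
def EquivBFStmt : Prop :=
  ∀ (k n m : ℕ) (G : Fin n → Fin n → Bool) (H : Fin m → Fin m → Bool), 1 ≤ k →
    ((JEquiv k G H ∨ SEquiv k G H) → n = m ∧ BF k G H) ∧ (CREquiv G H → n = m)

/-- Elementary facts on the two games. -/
def GameBasicStmt : Prop :=
  (∀ (κ κ' : ℕ) (V W : Type) (G : V → V → Bool) (H : W → W → Bool), κ' ≤ κ →
    (BG κ G H → BG κ' G H) ∧ (BF κ G H → BF κ' G H) ∧ (BG κ G H → BF κ G H)) ∧
  (∀ (κ : ℕ) (V W V' W' : Type) (G : V → V → Bool) (H : W → W → Bool) (e : V' ≃ V) (e' : W' ≃ W),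
    (BG κ G H ↔ BG κ (fun a b => G (e a) (e b)) (fun a b => H (e' a) (e' b))) ∧
    (BF κ G H ↔ BF κ (fun a b => G (e a) (e b)) (fun a b => H (e' a) (e' b))) ∧
    (Rigid κ G ↔ Rigid κ (fun a b => G (e a) (e b)))) ∧
  (∀ (κ n m : ℕ) (G : Fin n → Fin n → Bool) (H : Fin m → Fin m → Bool),
    (AdjIso G H → BG κ G H) ∧ (n = m → n ≤ κ → BF κ G H → AdjIso G H) ∧
    (n = m → 2 ≤ κ → Rigid κ G → BF κ G H → AdjIso G H))

/-- The apex construction. -/
def ApexStmt : Prop :=
  ∀ (κ n : ℕ) (G H : Fin n → Fin n → Bool),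
    (IsSimple G → SimpleConnDiamTwo (apex G)) ∧
    (BG κ G H → BG κ (apex G) (apex H)) ∧
    (2 ≤ κ → 5 ≤ n → IsSimple G → IsSimple H → MaxDegLeThree G → MaxDegLeThree H →
      BF κ (apex G) (apex H) → BF κ G H)

/-! ### Horn systems on `ℤ × ℤ` -/

/-- Translation invariant Horn rules with two premises. -/
structure Horn where
  act : ℕ → Prop
  pr : ℕ → Bool → ℕ
  sh : ℕ → Bool → ℤ × ℤ
  cn : ℕ → ℕ
  ini : ℕ → ℤ × ℤ → Prop

/-- The true facts: least set containing the initial facts and closed under the rules. -/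
inductive Horn.Tr (H : Horn) : ℕ → ℤ × ℤ → Prop
  | ini {σ : ℕ} {A : ℤ × ℤ} : H.ini σ A → H.Tr σ A
  | rule {r : ℕ} {A : ℤ × ℤ} : H.act r → H.Tr (H.pr r false) (A + H.sh r false) →
      H.Tr (H.pr r true) (A + H.sh r true) → H.Tr (H.cn r) A

/-- All true facts have addresses in the box `[0, B]²`. -/
def Horn.Box (H : Horn) (B : ℕ) : Prop :=
  ∀ σ A, H.Tr σ A → 0 ≤ A.1 ∧ A.1 ≤ B ∧ 0 ≤ A.2 ∧ A.2 ≤ B

/-- The goal fact. -/
def Horn.Goal (H : Horn) : Prop := H.Tr 0 (0, 0)

/-- The shift with number `d < 9`. -/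
def shf (d : ℕ) : ℤ × ℤ := (((d / 3 : ℕ) : ℤ) - 1, ((d % 3 : ℕ) : ℤ) - 1)

/-- Kind of the input column `j ≤ |y|`: `0,1,2` for letter `false`, letter `true`, end of the input;
plus `3` when `j = 0`. -/
def kind (y : Word) (j : ℕ) : ℕ :=
  (if j = 0 then 3 else 0) + (if j < y.length then (if y.getD j false then 1 else 0) else 2)

/-- Number of sorts of the description `h`. -/
def hs (h : Word) : ℕ := lead h

/-- Premise sorts, conclusion and shift numbers of rule number `r` over `s` sorts. -/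
def rPr (s r : ℕ) (side : Bool) : ℕ := if side then r / s % s else r % s
def rCn (s r : ℕ) : ℕ := r / (s * s) % s
def rSh (s r : ℕ) (side : Bool) : ℕ := if side then r / (s * s * s) / 9 else r / (s * s * s) % 9

/-- Rule `r` is present (the goal sort `0` is never a premise). -/
def hact (h : Word) (r : ℕ) : Prop :=
  r < 81 * (hs h * hs h * hs h) ∧ rPr (hs h) r false ≠ 0 ∧ rPr (hs h) r true ≠ 0 ∧
    h.getD (hs h + 1 + 6 * hs h + r) false = true

/-- Sort `σ` is initially true in input column `j`. -/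
def hini (h y : Word) (σ j : ℕ) : Prop :=
  σ < hs h ∧ j ≤ y.length ∧ h.getD (hs h + 1 + (6 * σ + kind y j)) false = true

/-- The Horn system with description `h` on input `y`. -/
def horn (h y : Word) : Horn where
  act := hact h
  pr := rPr (hs h)
  sh r side := shf (rSh (hs h) r side)
  cn := rCn (hs h)
  ini σ A := ∃ j : ℕ, A = (0, (j : ℤ)) ∧ hini h y σ j

/-- True facts of a Horn system given by tables (`rule a da b db c`: from sort `a` at shift `da` and
sort `b` at shift `db` conclude sort `c`; `init σ κ`: sort `σ` is true in the input columns of kind `κ`). -/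
inductive TrT (s : ℕ) (rule : ℕ → ℕ → ℕ → ℕ → ℕ → Prop) (init : ℕ → ℕ → Prop) (y : Word) :
    ℕ → ℤ × ℤ → Prop
  | ini {σ j : ℕ} : σ < s → j ≤ y.length → init σ (kind y j) → TrT s rule init y σ (0, (j : ℤ))
  | rule {a da b db c : ℕ} {A : ℤ × ℤ} : a < s → b < s → c < s → da < 9 → db < 9 → a ≠ 0 → b ≠ 0 →
      rule a da b db c → TrT s rule init y a (A + shf da) → TrT s rule init y b (A + shf db) →
      TrT s rule init y c A

/-- Every table is realised by a description. -/
def RealStmt : Prop :=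
  ∀ (s : ℕ) (rule : ℕ → ℕ → ℕ → ℕ → ℕ → Prop) (init : ℕ → ℕ → Prop),
    ∃ h : Word, ∀ y σ A, (horn h y).Tr σ A ↔ TrT s rule init y σ A

/-! ### Stack machines -/

/-- A simple stack machine. State `0` accepts, state `1` rejects (both halt). In state `q ≥ 2` it looks
at the top `a` of stack `stk q` (`0` when empty), moves to state `nx q a` and performs `op q` on that
stack: `0` nothing, `1` pop, `c + 1` (with `c ≥ 1`) push the symbol `c`. -/
structure SM where
  nS : ℕ
  nK : ℕ
  nA : ℕ
  stk : ℕ → ℕ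
  op : ℕ → ℕ
  nx : ℕ → ℕ → ℕ
  start : ℕ
  k0 : ℕ
  sym : Bool → ℕ

structure SM.WF (N : SM) : Prop where
  two : 2 ≤ N.nS
  start : N.start < N.nS
  k0 : N.k0 < N.nK
  stk : ∀ q < N.nS, N.stk q < N.nK
  op : ∀ q < N.nS, N.op q ≤ N.nA
  nx : ∀ q < N.nS, ∀ a < N.nA, N.nx q a < N.nS
  sym : ∀ b, 1 ≤ N.sym b ∧ N.sym b < N.nA

def SM.step (N : SM) (c : ℕ × (ℕ → List ℕ)) : ℕ × (ℕ → List ℕ) :=
  if c.1 ≤ 1 then c else
    (N.nx c.1 ((c.2 (N.stk c.1)).headD 0),
      Function.update c.2 (N.stk c.1)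
        (if N.op c.1 = 0 then c.2 (N.stk c.1)
         else if N.op c.1 = 1 then (c.2 (N.stk c.1)).tail
         else (N.op c.1 - 1) :: c.2 (N.stk c.1)))

def SM.run (N : SM) (y : Word) (t : ℕ) : ℕ × (ℕ → List ℕ) :=
  N.step^[t] (N.start, Function.update (fun _ => []) N.k0 (y.map N.sym))

/-- The machine `M`, started on `y`, halts with the one-letter output `b` within `t` steps. -/
def Out (M : TM2ComputableAux Bool Bool) (y : Word) (b : Bool) (t : ℕ) : Prop :=
  Nonempty (TM2OutputsInTime M.tm (List.map M.inputAlphabet.invFun y)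
    (some (List.map M.outputAlphabet.invFun [b])) t)

def TMSMStmt : Prop :=
  ∀ (M : TM2ComputableAux Bool Bool) (pol : Bool), ∃ (N : SM) (c : ℕ), N.WF ∧
    ∀ y b t, Out M y b t → ∃ t' ≤ c * (t + 1), (N.run y t').1 = if b = pol then 0 else 1

def SMHornStmt : Prop :=
  ∀ N : SM, N.WF → ∃ (s : ℕ) (rule : ℕ → ℕ → ℕ → ℕ → ℕ → Prop) (init : ℕ → ℕ → Prop),
    ∀ y t, (N.run y t).1 ≤ 1 →
      (∀ σ A, TrT s rule init y σ A → 0 ≤ A.1 ∧ A.1 ≤ t ∧ 0 ≤ A.2 ∧ A.2 ≤ (t + y.length : ℕ)) ∧
      (TrT s rule init y 0 (0, 0) ↔ (N.run y t).1 = 0)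

/-- Machines as Horn systems (follows from `TMSMStmt`, `SMHornStmt`, `RealStmt`). -/
def HornStmt : Prop :=
  ∀ (M : TM2ComputableAux Bool Bool) (pol : Bool), ∃ (h : Word) (c : ℕ), ∀ y b t, Out M y b t →
    (horn h y).Box (c * (t + 1) + y.length) ∧ ((horn h y).Goal ↔ b = pol)

/-- Evaluating a Horn system inside a box given in unary. -/
def EvalStmt : Prop :=
  ∃ ev : Word × Word × Un → Bool, PTime ev ∧
    ∀ h y B, (horn h y).Box B → (ev (h, y, ⟨B⟩) = true ↔ (horn h y).Goal)

/-- Padding: a test that is polynomial in the input and a unary pad, whose length is computed in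
binary in polynomial time, runs in time polynomial in the input length and the pad. -/
def PadStmt : Prop :=
  ∀ (g : Word × Un → Bool) (τ : Word → ℕ), PTime g → PTime τ →
    ∃ (M : TM2ComputableAux Bool Bool) (q : Polynomial ℕ),
      ∀ x, Out M x (g (x, ⟨τ x⟩)) (q.eval (x.length + τ x))

/-- Membership in EXPTIME through a unary pad. -/
def InExpStmt : Prop :=
  ∀ (L : Set Word) (g : Word × Un → Bool) (q : Polynomial ℕ), PTime g →
    (∀ x τ, 2 ^ q.eval x.length ≤ τ → (x ∈ L ↔ g (x, ⟨τ⟩) = true)) → Crest.ExpTime.InEXP L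

/-- Universal simulation of the word RAM (random stream `0`). -/
def RamStmt : Prop :=
  ∃ ram : Word × Un × Word × Un → Bool, PTime ram ∧
    ∀ P : Crest.WordRAM.Program, ∃ d : Word, ∀ (w : ℕ) (y : Word) (T τ : ℕ), T ≤ τ →
      (Crest.WordRAM.run P w (fun _ => 0) (y.map fun b => if b then 1 else 0) T).halted = true →
      (ram (d, ⟨w⟩, y, ⟨τ⟩) = true ↔
        (Crest.WordRAM.run P w (fun _ => 0) (y.map fun b => if b then 1 else 0) T).output = [1])

/-- The `n`-th prime is computable in unary. -/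
def PrimeStmt : Prop := PU fun a : Un => Nat.nth Nat.Prime a.val

/-- The matrix written row by row in a word. -/
def mat (n : ℕ) (w : Word) : Fin n → Fin n → Bool := fun i j => w.getD (i.val * n + j.val) false

/-- Deciding the joint equivalence in time polynomial in `n ^ k`. -/
def JAlgStmt : Prop :=
  ∃ f : (Un × Un × Word × Word) × Un → Bool, PTime f ∧
    ∀ k n G H τ, 1 ≤ k → n ^ k ≤ τ →
      (f ((⟨k⟩, ⟨n⟩, G, H), ⟨τ⟩) = true ↔ JEquiv k (mat n G) (mat n H))

/-- Deciding equivalence under colour refinement in polynomial time. -/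
def CRAlgStmt : Prop :=
  ∃ f : Un × Word × Word → Bool, PTime f ∧
    ∀ n G H, (f (⟨n⟩, G, H) = true ↔ CREquiv (mat n G) (mat n H))

/-- Polynomial-time tests on matrices. -/
def MatAlgStmt : Prop :=
  (PTime fun a : Un × Word => IsSimple (mat a.1.val a.2)) ∧
  (PTime fun a : Un × Word => MaxDegLeThree (mat a.1.val a.2)) ∧
  (PTime fun a : Un × Word => (adjGraph (mat a.1.val a.2)).Connected)

/-- Reading a graph code off the front of a word. -/
def ParseStmt : Prop :=
  ∃ (gn : Word → ℕ) (gm gr : Word → Word) (ok : Word → Prop), PU gn ∧ PTime gm ∧ PTime gr ∧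
    PTime ok ∧ (∀ x, gn x ≤ x.length) ∧
    (∀ x, ok x → x = adjMatrixCode (mat (gn x) (gm x)) ++ gr x) ∧
    (∀ (n : ℕ) (G : Fin n → Fin n → Bool) (r : Word), ok (adjMatrixCode G ++ r) ∧
      gn (adjMatrixCode G ++ r) = n ∧ gr (adjMatrixCode G ++ r) = r ∧
      mat n (gm (adjMatrixCode G ++ r)) = G)

/-- The three membership claims. -/
def Mem1Stmt : Prop := Crest.ExpTime.InEXP varDimEquivLang
def Mem2Stmt : Prop := Crest.ExpTime.InEXP subcubicVarDimEquivLang
def Mem3Stmt : Prop := Crest.ExpTime.InEXP wlDimLeLang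


/-- The equation lemmas are generated here once, for all importers. -/
theorem eqns_defs : True := by
  have := @Crest.WLRefine.jcolor.eq_def
  have := @Crest.WLRefine.jcolor.eq_1
  have := @Crest.WLRefine.atomicType.eq_1
  have := @Crest.WLRefine.ParityLift.unionAdj.eq_1
  have := @Crest.WLRefine.ParityLift.tAdj.eq_1
  have := @Crest.WLRefine.ParityLift.bAdj.eq_1
  have := @Crest.WLRefine.ParityLift.typeOf.eq_1
  trivial

end Crest.Agent.R290
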