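import Crest.Agent.R290.Defs

/-! Row 290: descriptions of Horn systems, machines as Horn systems, the `n`-th prime. -/

set_option autoImplicit false

namespace Crest.Agent.R290

open Crest.Agent.PT

namespace RealAux

theorem getD_desc (s N : ℕ) (f : ℕ → Bool) {n : ℕ} (hn : n < N) :
    (List.replicate s true ++ false :: (List.range N).map f).getD (s + 1 + n) false = f n := by
  rw [List.getD_append_right _ _ _ _ (by simp; omega)]
  have e : s + 1 + n - (List.replicate s true).length = n + 1 := by simp; omega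
  rw [e, List.getD_cons_succ, List.getD_eq_getElem _ _ (by simpa using hn)]
  simp

theorem kind_lt (y : Word) (j : ℕ) : kind y j < 6 := by
  unfold kind
  split_ifs <;> omega

theorem step_div {a s : ℕ} (h : a < s) (x : ℕ) : (a + s * x) / s = x := by
  rw [Nat.add_mul_div_left _ _ (by omega), Nat.div_eq_of_lt h, zero_add]

theorem step_mod {a s : ℕ} (h : a < s) (x : ℕ) : (a + s * x) % s = a := by
  rw [Nat.add_mul_mod_self_left, Nat.mod_eq_of_lt h]

theorem exists_code {s a b c da db : ℕ} (ha : a < s) (hb : b < s) (hc : c < s) (hda : da < 9)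
    (hdb : db < 9) : ∃ r, r < 81 * (s * s * s) ∧ rPr s r false = a ∧ rPr s r true = b ∧
      rCn s r = c ∧ rSh s r false = da ∧ rSh s r true = db := by
  have e3 : (a + s * (b + s * (c + s * (da + 9 * db)))) / (s * s * s) = da + 9 * db := by
    rw [← Nat.div_div_eq_div_mul, ← Nat.div_div_eq_div_mul, step_div ha, step_div hb, step_div hc]
  refine ⟨a + s * (b + s * (c + s * (da + 9 * db))), ?_, ?_, ?_, ?_, ?_, ?_⟩
  · have hs : 0 < s * s * s := by have : 0 < s := by omega
                                  positivity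
    rw [← Nat.div_lt_iff_lt_mul hs, e3]
    omega
  · exact step_mod ha _
  · show _ / s % s = b
    rw [step_div ha, step_mod hb]
  · rw [rCn, ← Nat.div_div_eq_div_mul, step_div ha, step_div hb, step_mod hc]
  · show _ / (s * s * s) % 9 = da
    rw [e3]; omega
  · show _ / (s * s * s) / 9 = db
    rw [e3]; omega

theorem nth_prime_lt (n : ℕ) : Nat.nth Nat.Prime n < (4 * n + 8) * (4 * n + 8) + 1 := by
  refine Nat.nth_lt_of_lt_count (not_le.1 fun h => ?_)
  set m := 4 * n + 8 with hm
  have h1 := (Chebyshev.psi_ge (m * m)).trans (Chebyshev.psi_le_primeCounting_mul_log (m * m))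
  have h2 : ((Nat.primeCounting (m * m) : ℕ) : ℝ) ≤ n := by exact_mod_cast h
  have hm' : (m : ℝ) = 4 * n + 8 := by rw [hm]; push_cast; ring
  have hn : (0 : ℝ) ≤ n := Nat.cast_nonneg n
  have hm0 : (0 : ℝ) < m := by linarith
  push_cast at h1
  have h3 : Real.log ((m : ℝ) * m) ≤ 2 * m := by
    rw [Real.log_mul hm0.ne' hm0.ne']
    linarith [Real.log_le_sub_one_of_pos hm0]
  have h4 : Real.log ((m : ℝ) * m + 1) ≤ 2 * m := by
    have e1 : Real.log ((m : ℝ) * m + 1) ≤ Real.log ((m + 1) * (m + 1)) :=
      Real.log_le_log (by positivity) (by nlinarith)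
    rw [Real.log_mul (by positivity) (by positivity)] at e1
    linarith [Real.log_le_sub_one_of_pos (show (0 : ℝ) < m + 1 by positivity)]
  have h5 : (0 : ℝ) ≤ Real.log ((m : ℝ) * m) := Real.log_nonneg (by nlinarith)
  have h6 := mul_le_mul h2 h3 h5 hn
  have h7 : (m : ℝ) * m * (1 / 2) ≤ m * m * Real.log 2 :=
    mul_le_mul_of_nonneg_left (by linarith [Real.log_two_gt_d9]) (by positivity)
  have h8 : (m : ℝ) * m = m * (4 * n + 8) := by rw [← hm']
  nlinarith

theorem pt_prime : PTime fun i : Un => Nat.Prime i.val := by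
  have h := PTime.sum_range (α := Un) (n := fun i => i.val)
    (g := fun i d => if 2 ≤ d ∧ i.val % d = 0 then 1 else 0) (by fun_prop) (by fun_prop)
  refine PTime.congr (f := fun i : Un => 2 ≤ i.val ∧
    ∑ d ∈ Finset.range i.val, (if 2 ≤ d ∧ i.val % d = 0 then 1 else 0) = 0) (by fun_prop)
    fun i => propext ?_
  rw [Nat.prime_def_lt', Finset.sum_eq_zero_iff]
  refine and_congr_right fun _ => ⟨fun h d hd => if_neg fun h' => ?_, fun h m h1 h2 h3 => ?_⟩
  · exact h d h'.1 (Finset.mem_range.1 hd) (Nat.dvd_of_mod_eq_zero h'.2)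
  · have := h m (Finset.mem_range.2 h2)
    rw [if_pos ⟨h1, Nat.mod_eq_zero_of_dvd h3⟩] at this
    exact one_ne_zero this

theorem pt_count : PTime fun j : Un => Nat.count Nat.Prime (j.val + 1) := by
  have h1 : PTime fun p : Un × Un => Nat.Prime p.2.val := pt_prime.comp (by fun_prop)
  refine (PTime.sum_range (α := Un) (n := fun j => j.val + 1)
    (g := fun _ i => if Nat.Prime i then 1 else 0) (by fun_prop) (by fun_prop)).congr fun j => ?_
  rw [Nat.count_eq_card_filter_range, Finset.card_filter]

end RealAux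

open RealAux

theorem realStmt : RealStmt := by
  classical
  intro s rule init
  let f : ℕ → Bool := fun n => if n < 6 * s then decide (init (n / 6) (n % 6)) else
    decide (rule (rPr s (n - 6 * s) false) (rSh s (n - 6 * s) false) (rPr s (n - 6 * s) true)
      (rSh s (n - 6 * s) true) (rCn s (n - 6 * s)))
  let h : Word := List.replicate s true ++ false :: (List.range (6 * s + 81 * (s * s * s))).map f
  have h0 : hs h = s := lead_replicate _ _
  have h1 : ∀ y σ j, hini h y σ j ↔ σ < s ∧ j ≤ y.length ∧ init σ (kind y j) := by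
    intro y σ j
    rw [hini, h0]
    refine and_congr_right fun hσ => and_congr_right fun _ => ?_
    have hk := kind_lt y j
    have e1 : (6 * σ + kind y j) / 6 = σ := by omega
    have e2 : (6 * σ + kind y j) % 6 = kind y j := by omega
    rw [getD_desc _ _ _ (by omega)]
    simp only [f]
    rw [if_pos (by omega), e1, e2, decide_eq_true_eq]
  have h2 : ∀ r, hact h r ↔ r < 81 * (s * s * s) ∧ rPr s r false ≠ 0 ∧ rPr s r true ≠ 0 ∧
      rule (rPr s r false) (rSh s r false) (rPr s r true) (rSh s r true) (rCn s r) := by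
    intro r
    rw [hact, h0]
    refine and_congr_right fun hr => and_congr_right fun _ => and_congr_right fun _ => ?_
    rw [add_assoc (s + 1), getD_desc _ _ _ (by omega)]
    simp only [f]
    rw [if_neg (by omega), Nat.add_sub_cancel_left, decide_eq_true_eq]
  refine ⟨h, fun y σ A => ⟨fun H => ?_, fun H => ?_⟩⟩
  · induction H with
    | ini hi =>
      obtain ⟨j, rfl, hj⟩ := hi
      obtain ⟨a1, a2, a3⟩ := (h1 _ _ _).1 hj
      exact .ini a1 a2 a3
    | @rule r A hr _ _ ih1 ih2 =>
      obtain ⟨a1, a2, a3, a4⟩ := (h2 r).1 hr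
      have hs0 : 0 < s := Nat.pos_of_ne_zero fun e => by simp [e] at a1
      have e : r / (s * s * s) < 81 := (Nat.div_lt_iff_lt_mul (by positivity)).2 a1
      simp only [horn, h0] at ih1 ih2 ⊢
      refine .rule (Nat.mod_lt _ hs0) (Nat.mod_lt _ hs0) (Nat.mod_lt _ hs0)
        (Nat.mod_lt _ (by omega)) ?_ a2 a3 a4 ih1 ih2
      show r / (s * s * s) / 9 < 9
      omega
  · induction H with
    | ini a1 a2 a3 => exact .ini ⟨_, rfl, (h1 _ _ _).2 ⟨a1, a2, a3⟩⟩
    | @rule a da b db c A ha hb hc hda hdb a0 b0 hr _ _ ih1 ih2 =>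
      obtain ⟨r, r0, rfl, rfl, rfl, rfl, rfl⟩ := exists_code ha hb hc hda hdb
      have := Horn.Tr.rule (H := horn h y) (r := r) (A := A) ((h2 r).2 ⟨r0, a0, b0, hr⟩)
        (by simpa only [horn, h0] using ih1) (by simpa only [horn, h0] using ih2)
      simpa only [horn, h0] using this

theorem hornStmt_of (h1 : TMSMStmt) (h2 : SMHornStmt) : HornStmt := by
  intro M pol
  obtain ⟨N, c, hN, hM⟩ := h1 M pol
  obtain ⟨s, rule, init, hS⟩ := h2 N hN
  obtain ⟨h, hh⟩ := realStmt s rule init
  refine ⟨h, c, fun y b t ho => ?_⟩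
  obtain ⟨t', ht', e⟩ := hM y b t ho
  obtain ⟨k1, k2⟩ := hS y t' (by rw [e]; split_ifs <;> omega)
  refine ⟨fun σ A hA => ?_, ?_⟩
  · obtain ⟨a1, a2, a3, a4⟩ := k1 σ A ((hh _ _ _).1 hA)
    generalize c * (t + 1) = T at *
    omega
  · rw [Horn.Goal, hh, k2, e]
    split_ifs with hb <;> simp [hb]

theorem primeStmt : PrimeStmt := by
  have hB : PU fun a : Un => (4 * a.val + 8) * (4 * a.val + 8) + 1 := by fun_prop
  have h1 : PTime fun p : Un × Un => Nat.count Nat.Prime (p.2.val + 1) :=
    pt_count.comp (by fun_prop)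
  refine PU.of_le ((PTime.sum_range (α := Un) hB
    (g := fun a j => if Nat.count Nat.Prime (j + 1) ≤ a.val then 1 else 0)
    (by fun_prop)).congr fun a => ?_) hB fun a => (nth_prime_lt a.val).le
  simp only [Nat.count_le_iff_le_nth Nat.infinite_setOfPred_prime]
  rw [← Finset.card_filter]
  have := nth_prime_lt a.val
  refine (Finset.card_range _).symm.trans (congrArg Finset.card ?_)
  ext j
  simp only [Finset.mem_filter, Finset.mem_range]
  exact ⟨fun h => ⟨h.trans this, h⟩, fun h => h.2⟩

end Crest.Agent.R290
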